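import Vale.Agent.P146.Div.Limit.Marks
import Vale.Agent.P157.Parisi.ModA.TreeMoment
import Vale.Agent.P157.Parisi.ModA.TiltFactor

/-!
Replicas drawn from a cascade with bounded positive marks have the tree law of the cascade.
-/

noncomputable section

open MeasureTheory ProbabilityTheory Filter Topology
open scoped BigOperators

namespace Vale.Agent.P146.Div.Limit

open Vale.Agent.P157.Parisi (atRep obsv_one treeW treeW_pair cexp_const logD_self)
open Vale.Agent.P157.Parisi.Up (Node node att mp_att leafW_att leafMarks_att)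
open Vale.Agent.P168 (Shape shapeProb shapeMarks shapeRep CascTree cascLaw cascSum cascFilter)
open Vale.Agent.P168.Cascade (Exps Bdd Leaf leafW leafMarks IsTree logW tableLaw ratio
  cascSum_eq_sum_leaves isTree_of_prob eventually_pos abs_logW_le tiltMoment)

variable {β : Type} [MeasurableSpace β] (ν : Measure β) [IsProbabilityMeasure ν] {r k : ℕ}

/-- The probability of a leaf. -/
def leafP (m : Fin r → ℝ) (nn : Fin r → ℕ) (Y : (Fin r → β) → ℝ) (t : CascTree β r nn)
    (l : Leaf r nn) : ℝ :=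
  leafW r m nn t l * Y (leafMarks r nn t l) / cascSum r m nn Y t

/-- The mean of a function of the tree of independent draws from weights on leaves. -/
def treeAvg (nn : Fin r → ℕ) (W : Leaf r nn → ℝ) (G : Shape r k → ℝ) : ℝ :=
  ∑ x : Fin k → Leaf r nn, (∏ a, W (x a)) * G (leafShape nn x)

theorem logW_one {m : Fin r → ℝ} (hm : Exps m) (v : Shape r k) (ω : Fin r → Fin k → β) :
    logW ν m (fun _ => 1) v ω = 0 := by
  have h := abs_logW_le ν (C := 1) hm (Y := fun _ => 1)
    ⟨one_pos, measurable_const, fun _ => ⟨le_of_eq inv_one, le_refl 1⟩⟩ v ω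
  simpa using h

theorem integral_exp_logW {m : Fin r → ℝ} (hm : Exps m) {C : ℝ} {Y : (Fin r → β) → ℝ}
    (hY : Bdd C Y) {v : Shape r (k + 1)} (hv : IsTree v) :
    ∫ ω, Real.exp (logW ν m Y v ω) * ∏ a, Y (shapeMarks v ω a) ∂tableLaw ν r (k + 1) = 1 := by
  have h := treeW_pair ν hm hY hv 0 0 (h := fun _ => 1) (h' := fun _ => 1) obsv_one obsv_one
  simp only [atRep, ite_self, mul_one, cexp_const ν hm hY] at h
  rw [show Vale.Agent.P168.Cascade.logD ν m Y (fun ω => Y ω) = 1 by
    simpa using logD_self ν hm hY 1] at h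
  simpa [treeW] using h

/-- The tilted moment of the signs. -/
theorem tiltMoment_signs {m : Fin r → ℝ} (hm : Exps m) {C : ℝ} (hC : 1 ≤ C)
    {Y : (Fin r → β) → ℝ} (hY : Bdd C Y) (P : Fin (k + 1) × Fin (k + 1) → ℕ) :
    tiltMoment (ν.prod (Measure.pi fun _ => coin)) m
        (fun η : Fin r → β × (Fin (k + 1) × Fin (k + 1) → Bool) => (Y fun i => (η i).1) * 1)
        (fun a η => (Y fun i => (η i).1) * (C⁻¹ * signObs P a fun i => (η i).2)) =
      C⁻¹ ^ (k + 1) * ∑ v, shapeProb m (k + 1) v * thr P v := by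
  set μ : Measure (Fin (k + 1) × Fin (k + 1) → Bool) := Measure.pi fun _ => coin
  rw [tiltMoment, Finset.mul_sum]
  refine Finset.sum_congr rfl fun v _ => ?_
  by_cases hp : shapeProb m (k + 1) v = 0
  · simp [hp]
  have hv := isTree_of_prob hp
  have hC0 : 0 < C := one_pos.trans_le hC
  have hone : Bdd C fun _ : Fin r → (Fin (k + 1) × Fin (k + 1) → Bool) => (1 : ℝ) :=
    ⟨hC0, measurable_const, fun _ => ⟨inv_le_one_of_one_le₀ hC, hC⟩⟩
  have hb : ∀ a (η : Fin r → Fin (k + 1) × Fin (k + 1) → Bool), |C⁻¹ * signObs P a η| ≤ C := by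
    intro a η
    rw [abs_mul, abs_of_pos (inv_pos.2 hC0)]
    exact ((mul_le_mul (inv_le_one_of_one_le₀ hC) (abs_signObs_le P a η) (abs_nonneg _)
      zero_le_one).trans (by rw [one_mul])).trans hC
  rw [Vale.Agent.P157.Parisi.tilt_factor β _ ν μ r (k + 1) m hm C Y (fun _ => 1) hY hone
    (fun _ => Y) (fun a η => C⁻¹ * signObs P a η) (fun _ => hY.meas) (fun _ => measurable_of_finite _)
    (fun _ ω => by rw [abs_of_pos (hY.gt_zero ω)]; exact (hY.mem ω).2) hb v hv,
    integral_exp_logW ν hm hY hv, one_mul]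
  have hz : ∀ ω : Fin r → Fin (k + 1) → Fin (k + 1) × Fin (k + 1) → Bool,
      logW μ m (fun _ => (1 : ℝ)) v ω = 0 := fun ω => logW_one μ hm v ω
  simp only [hz, Real.exp_zero, one_mul, Finset.prod_mul_distrib, Finset.prod_const,
    Finset.card_univ, Fintype.card_fin]
  rw [integral_const_mul]
  have hi := integral_signObs P (κ := Fin r × Fin (k + 1))
    (fun a i => (i, shapeRep v (i.val + 1) a)) v fun a b i => by
      simp only [Prod.ext_iff, true_and]
      exact rep_eq_iff_meet hv a b i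
  have e : ∫ ω, ∏ a, signObs P a (shapeMarks v ω a) ∂tableLaw μ r (k + 1) = thr P v := by
    rw [← hi]
    exact (Vale.Agent.P168.Upper.integral_mp
      (Vale.Agent.P168.Upper.mp_curry (ι := Fin r) (κ := Fin (k + 1)) μ)
      (measurable_of_finite _)).symm
  rw [e]
  ring

theorem thr_tendsto {m : Fin r → ℝ} (hm : Exps m) {C : ℝ} (hC : 1 ≤ C)
    {Y : (Fin r → β) → ℝ} (hY : Bdd C Y) (P : Fin (k + 1) × Fin (k + 1) → ℕ) :
    Tendsto (fun nn => ∫ t, treeAvg nn (leafP m nn Y t) (thr P) ∂cascLaw ν r nn) (cascFilter r)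
      (𝓝 (∑ v, shapeProb m (k + 1) v * thr P v)) := by
  set μ : Measure (Fin (k + 1) × Fin (k + 1) → Bool) := Measure.pi fun _ => coin
  set Y' : (Fin r → β × (Fin (k + 1) × Fin (k + 1) → Bool)) → ℝ :=
    fun η => (Y fun i => (η i).1) * 1
  set g : Fin (k + 1) → (Fin r → β × (Fin (k + 1) × Fin (k + 1) → Bool)) → ℝ :=
    fun a η => (Y fun i => (η i).1) * (C⁻¹ * signObs P a fun i => (η i).2)
  have hC0 : 0 < C := one_pos.trans_le hC
  have hp1 : Measurable fun η : Fin r → β × (Fin (k + 1) × Fin (k + 1) → Bool) =>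
      fun i => (η i).1 := by fun_prop
  have hp2 : Measurable fun η : Fin r → β × (Fin (k + 1) × Fin (k + 1) → Bool) =>
      fun i => (η i).2 := by fun_prop
  have hY' : Bdd C Y' := ⟨hC0, (hY.meas.comp hp1).mul_const 1, fun η => by
    simp only [Y', mul_one]; exact hY.mem _⟩
  have hgm : ∀ a, Measurable (g a) := fun a => (hY.meas.comp hp1).mul
    (((measurable_of_finite (signObs (r := r) P a)).comp hp2).const_mul _)
  have hgb : ∀ a η, |g a η| ≤ 1 := fun a η => by
    simp only [g]
    rw [abs_mul, abs_mul, abs_of_pos (inv_pos.2 hC0), abs_of_pos (hY.gt_zero _), ← mul_assoc]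
    refine mul_le_one₀ ?_ (abs_nonneg _) (abs_signObs_le _ _ _)
    rw [← div_eq_mul_inv, div_le_one hC0]
    exact (hY.mem _).2
  have hlim := Vale.Agent.P168.Cascade.integral_prod_ratio_tendsto (ν.prod μ) k hm hC hY' hgm hgb
  rw [tiltMoment_signs ν hm hC hY P] at hlim
  have hlim' := hlim.const_mul (C ^ (k + 1))
  have hCk : C ^ (k + 1) * C⁻¹ ^ (k + 1) = 1 := by
    rw [← mul_pow, mul_inv_cancel₀ hC0.ne', one_pow]
  rw [← mul_assoc, hCk, one_mul] at hlim'
  refine hlim'.congr' ?_
  filter_upwards [eventually_pos r] with nn hn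
  have hint := Vale.Agent.P168.Cascade.integrable_prod_ratio (ν.prod μ) hY' hgm hgb m hn
  have hmp := mp_att ν μ r nn
  rw [← Vale.Agent.P168.Upper.integral_mp hmp (g := fun t => ∏ a, ratio m nn Y' (g a) t)
      (Finset.measurable_prod _ fun a _ =>
        (Vale.Agent.P168.Cascade.measurable_cascSum m nn (hgm a)).div
          (Vale.Agent.P168.Cascade.measurable_cascSum m nn hY'.meas)),
    integral_prod (fun z => ∏ a, ratio m nn Y' (g a) (att r nn z))
      ((hmp.integrable_comp hint.aestronglyMeasurable).2 hint), ← integral_const_mul]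
  refine integral_congr_ae (Eventually.of_forall fun t => ?_)
  have hr : ∀ (γ : Node r nn → Fin (k + 1) × Fin (k + 1) → Bool) a,
      ratio m nn Y' (g a) (att r nn (t, γ)) =
        ∑ l, C⁻¹ * leafP m nn Y t l * signObs P a (fun i => γ (node nn l i)) := by
    intro γ a
    simp only [ratio, leafP, cascSum_eq_sum_leaves, leafW_att, Y', g, leafMarks_att, mul_one,
      Finset.sum_div]
    exact Finset.sum_congr rfl fun l _ => by ring
  simp only [hr, Fintype.prod_sum]
  rw [integral_finsetSum _ fun x _ => Integrable.of_finite, Finset.mul_sum, treeAvg]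
  refine Finset.sum_congr rfl fun x _ => ?_
  simp only [Finset.prod_mul_distrib, Finset.prod_const, Finset.card_univ, Fintype.card_fin]
  rw [integral_const_mul, integral_signObs P (fun a i => node nn (x a) i) (leafShape nn x)
    fun a b i => by rw [node_eq_iff, leafShape_val], ← mul_assoc, ← mul_assoc, hCk, one_mul]

theorem abs_treeAvg_le (nn : Fin r → ℕ) {W : Leaf r nn → ℝ} (h0 : ∀ l, 0 ≤ W l)
    (h1 : ∑ l, W l ≤ 1) (G : Shape r k → ℝ) : |treeAvg nn W G| ≤ ∑ v, |G v| := by
  refine (Finset.abs_sum_le_sum_abs _ _).trans ?_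
  calc ∑ x : Fin k → Leaf r nn, |(∏ a, W (x a)) * G (leafShape nn x)|
      ≤ ∑ x : Fin k → Leaf r nn, (∏ a, W (x a)) * ∑ v, |G v| := Finset.sum_le_sum fun x _ => by
        rw [abs_mul, abs_of_nonneg (Finset.prod_nonneg fun a _ => h0 _)]
        exact mul_le_mul_of_nonneg_left (Finset.single_le_sum (fun v _ => abs_nonneg (G v))
          (Finset.mem_univ _)) (Finset.prod_nonneg fun a _ => h0 _)
    _ = (∑ l, W l) ^ k * ∑ v, |G v| := by rw [Fintype.sum_pow, Finset.sum_mul]
    _ ≤ 1 * ∑ v, |G v| := mul_le_mul_of_nonneg_right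
        (pow_le_one₀ (Finset.sum_nonneg fun l _ => h0 l) h1)
        (Finset.sum_nonneg fun v _ => abs_nonneg _)
    _ = _ := one_mul _

theorem leafP_nonneg {m : Fin r → ℝ} {nn : Fin r → ℕ} {Y : (Fin r → β) → ℝ} (hY : ∀ ω, 0 ≤ Y ω)
    {t : CascTree β r nn} (ht : Vale.Agent.P168.Cascade.GoodTree r nn t) (l : Leaf r nn) :
    0 ≤ leafP m nn Y t l := by
  have hw := fun l => (Vale.Agent.P168.Cascade.leafW_pos r m nn t l ht).le
  refine div_nonneg (mul_nonneg (hw l) (hY _)) ?_
  rw [cascSum_eq_sum_leaves]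
  exact Finset.sum_nonneg fun l _ => mul_nonneg (hw l) (hY _)

theorem sum_leafP_le {m : Fin r → ℝ} {nn : Fin r → ℕ} (Y : (Fin r → β) → ℝ)
    (t : CascTree β r nn) : ∑ l, leafP m nn Y t l ≤ 1 := by
  simp only [leafP, cascSum_eq_sum_leaves]
  rw [← Finset.sum_div]
  exact div_self_le_one _

theorem measurable_treeAvg {α : Type} [MeasurableSpace α] {nn : Fin r → ℕ}
    {W : α → Leaf r nn → ℝ} (hW : ∀ l, Measurable fun z => W z l) (G : Shape r k → ℝ) :
    Measurable fun z => treeAvg nn (W z) G :=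
  Finset.measurable_sum _ fun x _ => (Finset.measurable_prod _ fun a _ => hW (x a)).mul_const _

theorem measurable_leafP (m : Fin r → ℝ) (nn : Fin r → ℕ) {Y : (Fin r → β) → ℝ}
    (hY : Measurable Y) (l : Leaf r nn) : Measurable fun t => leafP m nn Y t l :=
  ((Vale.Agent.P168.Cascade.measurable_leafW r m nn l).mul
    (hY.comp (Vale.Agent.P168.Cascade.measurable_leafMarks r nn l))).div
    (Vale.Agent.P168.Cascade.measurable_cascSum m nn hY)

theorem integrable_treeAvg (m : Fin r → ℝ) (nn : Fin r → ℕ) {Y : (Fin r → β) → ℝ}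
    (hYm : Measurable Y) (hY : ∀ ω, 0 ≤ Y ω) (G : Shape r k → ℝ) :
    Integrable (fun t => treeAvg nn (leafP m nn Y t) G) (cascLaw ν r nn) :=
  Integrable.of_bound (measurable_treeAvg (measurable_leafP m nn hYm) G).aestronglyMeasurable
    (∑ v, |G v|) ((Vale.Agent.P168.Cascade.ae_good ν r nn).mono fun t ht => by
      rw [Real.norm_eq_abs]
      exact abs_treeAvg_le nn (leafP_nonneg hY ht) (sum_leafP_le Y t) G)

/-- Bounded marks leave the law of the trees of replicas unchanged. -/
theorem bounded_shape {m : Fin r → ℝ} (hm : Exps m) {C : ℝ} (hC : 1 ≤ C)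
    {Y : (Fin r → β) → ℝ} (hY : Bdd C Y) (G : Shape r k → ℝ) :
    Tendsto (fun nn => ∫ t, treeAvg nn (leafP m nn Y t) G ∂cascLaw ν r nn) (cascFilter r)
      (𝓝 (∑ v, shapeProb m k v * G v)) := by
  cases k with
  | zero =>
    have h1 : ∀ (nn : Fin r → ℕ) (W : Leaf r nn → ℝ), treeAvg nn W G = G default := fun nn W => by
      rw [treeAvg, Fintype.sum_unique, Fintype.prod_empty, one_mul]
      exact congrArg G (Subsingleton.elim _ _)
    simp [h1, shapeProb, Fintype.sum_unique]
    exact tendsto_const_nhds.congr fun nn => congrArg G (Subsingleton.elim _ _)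
  | succ k =>
    let T : Shape r (k + 1) → Finset (Fin (k + 1) × Fin (k + 1)) →
        Fin (k + 1) × Fin (k + 1) → ℕ :=
      fun w t e => if e ∈ t then (w e.1 e.2).val else (w e.1 e.2).val + 1
    let c : Shape r (k + 1) → Finset (Fin (k + 1) × Fin (k + 1)) → ℝ :=
      fun w t => G w * (-1) ^ (Finset.univ \ t).card
    have hG : ∀ v, G v = ∑ w, ∑ t ∈ Finset.univ.powerset, c w t * thr (T w t) v := expand_thr G
    have hA : ∀ (nn : Fin r → ℕ) (W : Leaf r nn → ℝ), treeAvg nn W G =
        ∑ w, ∑ t ∈ Finset.univ.powerset, c w t * treeAvg nn W (thr (T w t)) := by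
      intro nn W
      simp only [treeAvg, hG, Finset.mul_sum]
      rw [Finset.sum_comm]
      refine Finset.sum_congr rfl fun w _ => ?_
      rw [Finset.sum_comm]
      exact Finset.sum_congr rfl fun t _ => Finset.sum_congr rfl fun x _ => by ring
    have hR : ∑ v, shapeProb m (k + 1) v * G v =
        ∑ w, ∑ t ∈ Finset.univ.powerset, c w t * ∑ v, shapeProb m (k + 1) v * thr (T w t) v := by
      simp only [hG, Finset.mul_sum]
      rw [Finset.sum_comm]
      refine Finset.sum_congr rfl fun w _ => ?_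
      rw [Finset.sum_comm]
      exact Finset.sum_congr rfl fun t _ => Finset.sum_congr rfl fun x _ => by ring
    rw [hR]
    refine (tendsto_finsetSum _ fun w _ => tendsto_finsetSum _ fun t _ =>
      (thr_tendsto ν hm hC hY (T w t)).const_mul (c w t)).congr' ?_
    filter_upwards [eventually_pos r] with nn hn
    have hi : ∀ (w : Shape r (k + 1)) (t : Finset (Fin (k + 1) × Fin (k + 1))),
        Integrable (fun s => c w t * treeAvg nn (leafP m nn Y s) (thr (T w t))) (cascLaw ν r nn) :=
      fun w t => (integrable_treeAvg ν m nn hY.meas (fun ω => (hY.gt_zero ω).le) _).const_mul _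
    simp only [hA]
    rw [integral_finsetSum _ fun w _ => integrable_finsetSum _ fun t _ => hi w t]
    refine Finset.sum_congr rfl fun w _ => ?_
    rw [integral_finsetSum _ fun t _ => hi w t]
    exact Finset.sum_congr rfl fun t _ => (integral_const_mul _ _).symm

end Vale.Agent.P146.Div.Limit
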