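import Vale.Agent.P146.Div.Limit.Trunc
import Vale.Agent.P146.Div.Statements
import Vale.Agent.P157.Parisi.Site.Levels
import Vale.Agent.P157.Parisi.Upper.Site
import Vale.Agent.P168.Upper.Limit
import Vale.Agent.P157.Parisi.ModA.TreeShape

/-!
Limits of finite cascades with Gaussian fields at every site: the law of the trees of replicas and
the free energy of the fields.
-/

noncomputable section

open MeasureTheory ProbabilityTheory Filter Topology
open scoped BigOperators

namespace Vale.Agent.P146.Div.Limit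

open Vale.Agent.P146 (spin)
open Vale.Agent.P157 (gam dot)
open Vale.Agent.P157.Parisi (Path pathField level layer siteValue)
open Vale.Agent.P157.Parisi.Full (logCosh)
open Vale.Agent.P157.Parisi.Site (Grow genNested_exp exp_level_sub_le spread integrable_exp_abs)
open Vale.Agent.P157.Parisi.Up (Node node att mp_rootAtt leafW_att leafMarks_att dot_leafVec)
open Vale.Agent.P168 (Shape shapeProb CascTree cascLaw cascSum cascMean cascFilter genNested)
open Vale.Agent.P168.Cascade (Bdd Leaf leafW leafMarks cascSum_eq_sum_leaves eventually_pos)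

variable {n : ℕ}

/-- The sum over configurations of the weight of one leaf. -/
def siteY (ξ : Path) (h : (Fin n → Bool) → ℝ) (c : ℝ) (g₀ : Fin n → ℝ)
    (η : Fin ξ.r → Unit × (Fin n → ℝ)) : ℝ :=
  ∑ s, Real.exp (h s + c * ∑ i, spin (s i) * pathField ξ.q (g₀ i) fun p => (η p).2 i)

/-- The root variables and the cascade carrying the node variables. -/
def rootTree (ξ : Path) (nn : Fin ξ.r → ℕ) (z : CascTree Unit ξ.r nn × FieldVar ξ.r n nn) :
    (Fin n → ℝ) × CascTree (Unit × (Fin n → ℝ)) ξ.r nn :=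
  (fun i => z.2 i none, att ξ.r nn (z.1, fun d i => z.2 i (some d)))

theorem mp_rootTree (ξ : Path) (nn : Fin ξ.r → ℕ) :
    MeasurePreserving (rootTree (n := n) ξ nn) (augLaw ξ n nn)
      ((gam (Fin n)).prod (cascLaw (markLaw (gam (Fin n))) ξ.r nn)) :=
  (mp_rootAtt (Measure.dirac ()) (gam (Fin n)) ξ.r nn).comp
    ((MeasurePreserving.id (cascLaw (Measure.dirac ()) ξ.r nn)).prod
      (Vale.Agent.P168.Upper.mp_flip (ι := Fin n) (κ := Option (Node ξ.r nn)) (gaussianReal 0 1)))

theorem sum_joint (ξ : Path) (nn : Fin ξ.r → ℕ) (h : (Fin n → Bool) → ℝ) (c : ℝ)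
    (z : CascTree Unit ξ.r nn × FieldVar ξ.r n nn) (l : Leaf ξ.r nn) :
    ∑ s, joint ξ nn h c z (s, l) = leafW ξ.r ξ.m nn (rootTree ξ nn z).2 l *
      siteY ξ h c (rootTree ξ nn z).1 (leafMarks ξ.r nn (rootTree ξ nn z).2 l) := by
  simp only [joint, siteY, rootTree, leafW_att, leafMarks_att, fieldE, dot_leafVec, Finset.mul_sum]

theorem sum_all_joint (ξ : Path) (nn : Fin ξ.r → ℕ) (h : (Fin n → Bool) → ℝ) (c : ℝ)
    (z : CascTree Unit ξ.r nn × FieldVar ξ.r n nn) :
    ∑ y, joint ξ nn h c z y = cascSum ξ.r ξ.m nn (siteY ξ h c (rootTree ξ nn z).1)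
      (rootTree ξ nn z).2 := by
  rw [Fintype.sum_prod_type_right, cascSum_eq_sum_leaves]
  exact Finset.sum_congr rfl fun l _ => sum_joint ξ nn h c z l

theorem shapeMean_eq {k : ℕ} (ξ : Path) (nn : Fin ξ.r → ℕ) (h : (Fin n → Bool) → ℝ) (c : ℝ)
    (G : Shape ξ.r k → ℝ) :
    shapeMean ξ nn h c G = ∫ z, treeAvg nn
      (leafP ξ.m nn (siteY ξ h c (rootTree ξ nn z).1) (rootTree ξ nn z).2) G ∂augLaw ξ n nn := by
  refine integral_congr_ae (Eventually.of_forall fun z => ?_)
  dsimp only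
  show _ = treeAvg nn (leafP ξ.m nn (siteY ξ h c (rootTree ξ nn z).1) (rootTree ξ nn z).2) G
  rw [← (Equiv.arrowProdEquivProdArrow (Fin k) (fun _ => Fin n → Bool)
    (fun _ => Leaf ξ.r nn)).symm.sum_comp, Fintype.sum_prod_type_right, treeAvg]
  refine Finset.sum_congr rfl fun x _ => ?_
  have hp : ∀ l, leafP ξ.m nn (siteY ξ h c (rootTree ξ nn z).1) (rootTree ξ nn z).2 l =
      ∑ s, jointGibbs ξ nn h c z (s, l) := fun l => by
    simp only [leafP, jointGibbs, sum_all_joint, ← Finset.sum_div, sum_joint]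
  simp only [hp, Fintype.prod_sum, Finset.sum_mul]
  rfl

theorem measurable_siteY (ξ : Path) (h : (Fin n → Bool) → ℝ) (c : ℝ) :
    Measurable (Function.uncurry (siteY ξ h c)) := by
  refine Finset.measurable_sum _ fun s _ => ((Finset.measurable_sum _ fun i _ => ?_).const_mul c
    |>.const_add (h s)).exp
  exact ((Vale.Agent.P157.Parisi.Up.measurable_pathField ξ.q).comp
    (f := fun z : (Fin n → ℝ) × (Fin ξ.r → Unit × (Fin n → ℝ)) => (z.1 i, fun p => (z.2 p).2 i))
    (((measurable_pi_apply i).comp measurable_fst).prodMk (measurable_pi_lambda _ fun p =>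
      (measurable_pi_apply i).comp (measurable_snd.comp ((measurable_pi_apply p).comp
        measurable_snd))))).const_mul _

theorem le_siteY (ξ : Path) (h : (Fin n → Bool) → ℝ) (c : ℝ) (g₀ : Fin n → ℝ)
    (η : Fin ξ.r → Unit × (Fin n → ℝ)) : Real.exp (-∑ s, |h s|) ≤ siteY ξ h c g₀ η := by
  set s₀ : Fin n → Bool :=
    fun i => decide (0 ≤ c * pathField ξ.q (g₀ i) fun p => (η p).2 i) with hs₀
  refine le_trans ?_ (Finset.single_le_sum (fun s _ => (Real.exp_pos _).le) (Finset.mem_univ s₀))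
  refine Real.exp_le_exp.2 ?_
  have h1 : 0 ≤ c * ∑ i, spin (s₀ i) * pathField ξ.q (g₀ i) fun p => (η p).2 i := by
    rw [Finset.mul_sum]
    refine Finset.sum_nonneg fun i _ => ?_
    by_cases hc : 0 ≤ c * pathField ξ.q (g₀ i) fun p => (η p).2 i
    · simpa [hs₀, spin, hc] using hc
    · simp only [hs₀, spin, hc, decide_false, Bool.false_eq_true, if_false]
      linarith
  have h2 := Finset.single_le_sum (fun s _ => abs_nonneg (h s)) (Finset.mem_univ s₀)
  linarith [neg_abs_le (h s₀)]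

theorem integrable_siteY (ξ : Path) (h : (Fin n → Bool) → ℝ) (c : ℝ) (g₀ : Fin n → ℝ) :
    Integrable (siteY ξ h c g₀) (Measure.pi fun _ : Fin ξ.r => markLaw (gam (Fin n))) := by
  refine integrable_finsetSum _ fun s _ => ?_
  have hmp := Vale.Agent.P168.Upper.mp_pi (ι := Fin ξ.r)
    (measurePreserving_snd (μ := Measure.dirac ()) (ν := gam (Fin n)))
  have hi : Integrable (fun x : Fin ξ.r → Fin n → ℝ => ∏ p, ∏ i,
      Real.exp (c * spin (s i) * Real.sqrt (ξ.q p.succ - ξ.q p.castSucc) * x p i))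
      (Measure.pi fun _ => gam (Fin n)) :=
    Integrable.fintype_prod fun p => Integrable.fintype_prod fun i =>
      integrable_exp_mul_gaussianReal _
  refine ((hmp.integrable_comp_of_integrable hi).const_mul
    (Real.exp (h s + c * ∑ i, spin (s i) * (Real.sqrt (ξ.q 0) * g₀ i)))).congr
    (Eventually.of_forall fun η => ?_)
  simp only [Function.comp_apply, pathField, ← Real.exp_sum, ← Real.exp_add]
  congr 1
  simp only [mul_add, Finset.sum_add_distrib, Finset.mul_sum]
  rw [Finset.sum_comm, add_assoc]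
  congr 2
  exact Finset.sum_congr rfl fun i _ => Finset.sum_congr rfl fun p _ => by ring

theorem measurable_treeAvg_param {α β : Type} [MeasurableSpace α] [MeasurableSpace β] {r k : ℕ}
    (m : Fin r → ℝ) (nn : Fin r → ℕ) {W : α → (Fin r → β) → ℝ}
    (hW : Measurable (Function.uncurry W)) (G : Shape r k → ℝ) :
    Measurable fun p : α × CascTree β r nn => treeAvg nn (leafP m nn (W p.1) p.2) G := by
  have hw : ∀ l : Leaf r nn, Measurable fun p : α × CascTree β r nn =>
      leafW r m nn p.2 l * W p.1 (leafMarks r nn p.2 l) := fun l =>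
    ((Vale.Agent.P168.Cascade.measurable_leafW r m nn l).comp measurable_snd).mul
      (hW.comp (measurable_fst.prodMk
        ((Vale.Agent.P168.Cascade.measurable_leafMarks r nn l).comp measurable_snd)))
  refine Finset.measurable_sum _ fun x _ => (Finset.measurable_prod _ fun a _ => ?_).mul_const _
  unfold leafP
  simp_rw [cascSum_eq_sum_leaves]
  exact (hw (x a)).div (Finset.measurable_sum _ fun l _ => hw l)

/-- Fields leave the law of the trees of replicas unchanged. -/
theorem shapeLimit_holds : ShapeLimitStmt := by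
  intro ξ n k h c G
  set L := ∑ v, shapeProb ξ.m k v * G v
  set μ := markLaw (gam (Fin n))
  set F : (nn : Fin ξ.r → ℕ) → (Fin n → ℝ) × CascTree (Unit × (Fin n → ℝ)) ξ.r nn → ℝ :=
    fun nn p => treeAvg nn (leafP ξ.m nn (siteY ξ h c p.1) p.2) G
  have hY0 : ∀ g₀ η, 0 ≤ siteY ξ h c g₀ η := fun g₀ η =>
    Finset.sum_nonneg fun s _ => (Real.exp_pos _).le
  have hFm : ∀ nn, Measurable (F nn) := fun nn =>
    measurable_treeAvg_param ξ.m nn (W := fun g₀ => siteY ξ h c g₀) (measurable_siteY ξ h c) G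
  have hFb : ∀ nn g₀, ∀ᵐ t ∂cascLaw μ ξ.r nn, ‖F nn (g₀, t)‖ ≤ ∑ v, |G v| := fun nn g₀ =>
    (Vale.Agent.P168.Cascade.ae_good μ ξ.r nn).mono fun t ht => by
      rw [Real.norm_eq_abs]
      exact abs_treeAvg_le nn (leafP_nonneg (hY0 g₀) ht) (sum_leafP_le _ t) G
  have heq : ∀ nn, shapeMean ξ nn h c G =
      ∫ g₀, ∫ t, F nn (g₀, t) ∂cascLaw μ ξ.r nn ∂gam (Fin n) := fun nn => by
    rw [shapeMean_eq]
    refine (Vale.Agent.P168.Upper.integral_mp (mp_rootTree ξ nn) (hFm nn)).trans
      (integral_prod _ (Integrable.of_bound (hFm nn).aestronglyMeasurable (∑ v, |G v|) ?_))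
    exact (Measure.ae_prod_iff_ae_ae (measurableSet_le (hFm nn).norm measurable_const)).2
      (Eventually.of_forall (hFb nn))
  simp only [heq]
  have hlim := Vale.Agent.P168.Upper.tendsto_integral_cascFilter (gam (Fin n))
    (fun nn g₀ => ∫ t, F nn (g₀, t) ∂cascLaw μ ξ.r nn) (fun _ => L)
    (max (∑ v, |G v|) |L|)
    (fun nn => ((hFm nn).stronglyMeasurable.integral_prod_right').measurable) measurable_const
    (fun nn g₀ => ?_) (fun _ => le_max_right _ _) fun g₀ => ?_
  · simpa [L] using hlim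
  · refine le_trans ?_ (le_max_left _ _)
    have := norm_integral_le_of_norm_le_const (hFb nn g₀)
    simpa [Real.norm_eq_abs] using this
  · exact shape_tendsto (gam (Fin n)) ξ.isPath.exps
      ((measurable_siteY ξ h c).comp (measurable_const.prodMk measurable_id)) (Real.exp_pos _)
      (le_siteY ξ h c g₀) (integrable_siteY ξ h c g₀) G

/-! ### The fields alone -/

/-- `log (min (cosh y) M)`. -/
def cutLog (M y : ℝ) : ℝ := Real.log (min (Real.cosh y) M)

theorem cosh_le_exp_abs (y : ℝ) : Real.cosh y ≤ Real.exp |y| := by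
  rw [Real.cosh_eq]
  linarith [Real.exp_le_exp.2 (le_abs_self y), Real.exp_le_exp.2 (neg_le_abs y)]

theorem grow_cutLog {M : ℝ} (hM : 1 ≤ M) : Grow 0 (cutLog M) := by
  have h1 : ∀ y, 1 ≤ min (Real.cosh y) M := fun y => le_min (Real.one_le_cosh y) hM
  refine ⟨(Real.continuous_cosh.min continuous_const).measurable.log,
    fun y => Real.log_nonneg (h1 y), fun y => ?_⟩
  rw [zero_add]
  calc Real.log (min (Real.cosh y) M) ≤ Real.log (Real.exp |y|) :=
        Real.log_le_log (one_pos.trans_le (h1 y)) ((min_le_left _ _).trans (cosh_le_exp_abs y))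
    _ = |y| := Real.log_exp _

theorem grow_logCosh : Grow 0 logCosh :=
  ⟨Real.continuous_cosh.measurable.log, fun y => Real.log_nonneg (Real.one_le_cosh y),
    fun y => by
      rw [zero_add]
      exact (Real.log_le_log (Real.cosh_pos y) (cosh_le_exp_abs y)).trans_eq (Real.log_exp _)⟩

theorem level_le : ∀ {r : ℕ} {m : Fin r → ℝ}, (∀ i, 0 < m i) → ∀ (ρ : Fin (r + 1) → ℝ) {A : ℝ}
    {ψ ψ' : ℝ → ℝ}, Grow A ψ → Grow A ψ' → (∀ y, ψ y ≤ ψ' y) → ∀ x,
      level m ρ ψ 0 x ≤ level m ρ ψ' 0 x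
  | 0, _, _, _, _, _, _, _, _, hle, x => hle x
  | r + 1, m, hm, ρ, A, ψ, ψ', h, h', hle, x => by
    obtain ⟨A₁, hF⟩ := Grow.level (m := Fin.tail m) (fun i => hm _) (Fin.tail ρ) h
    obtain ⟨A₂, hF'⟩ := Grow.level (m := Fin.tail m) (fun i => hm _) (Fin.tail ρ) h'
    show layer (m 0) (ρ 1 - ρ 0) (level (Fin.tail m) (Fin.tail ρ) ψ 0) x ≤
      layer (m 0) (ρ 1 - ρ 0) (level (Fin.tail m) (Fin.tail ρ) ψ' 0) x
    refine mul_le_mul_of_nonneg_left (Real.log_le_log ?_ ?_) (one_div_pos.2 (hm 0)).le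
    · exact one_pos.trans_le (hF.one_le (hm 0).le x _)
    · exact integral_mono (hF.integrable_exp (hm 0).le x _) (hF'.integrable_exp (hm 0).le x _)
        fun g => Real.exp_le_exp.2 (mul_le_mul_of_nonneg_left
          (level_le (m := Fin.tail m) (fun i => hm _) _ h h' hle _) (hm 0).le)

theorem tendsto_level_cut (ξ : Path) {ρ : Fin (ξ.r + 1) → ℝ} (hρ : Monotone ρ) :
    Tendsto (fun M : ℕ => level ξ.m ρ (cutLog (max (M : ℝ) 1)) 0 0) atTop
      (𝓝 (level ξ.m ρ logCosh 0 0)) := by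
  have hm := ξ.isPath.exps
  set L := level ξ.m ρ logCosh 0 0
  have hle : ∀ (M : ℕ) y, cutLog (max (M : ℝ) 1) y ≤ logCosh y := fun M y =>
    Real.log_le_log (one_pos.trans_le (le_min (Real.one_le_cosh y) (le_max_right _ _)))
      (min_le_left _ _)
  have hLM : ∀ M : ℕ, level ξ.m ρ (cutLog (max (M : ℝ) 1)) 0 0 ≤ L := fun M =>
    level_le hm.pos ρ (grow_cutLog (le_max_right _ _)) grow_logCosh (hle M) 0
  set σ := ρ (Fin.last ξ.r) - ρ 0
  have hi : Integrable (fun g => Real.cosh (Real.sqrt σ * g)) (gaussianReal 0 1) :=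
    (integrable_exp_abs (Real.sqrt σ)).mono' (by fun_prop) (ae_of_all _ fun g => by
      rw [Real.norm_eq_abs, abs_of_pos (Real.cosh_pos _)]
      refine (cosh_le_exp_abs _).trans_eq ?_
      rw [abs_mul, abs_of_nonneg (Real.sqrt_nonneg _)])
  have hsp : Tendsto (fun M : ℕ => spread σ
      (fun y => Real.exp (logCosh y) - Real.exp (cutLog (max (M : ℝ) 1) y)) 0) atTop (𝓝 0) := by
    refine (tendsto_cut (by fun_prop) hi one_pos fun g => Real.one_le_cosh _).congr fun M => ?_
    refine integral_congr_ae (Eventually.of_forall fun g => ?_)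
    simp only [zero_add, logCosh, cutLog, Real.exp_log (Real.cosh_pos _),
      Real.exp_log (one_pos.trans_le (le_min (Real.one_le_cosh _) (le_max_right (M : ℝ) 1)))]
  have hb : ∀ M : ℕ, Real.exp L - Real.exp |L| * spread σ
      (fun y => Real.exp (logCosh y) - Real.exp (cutLog (max (M : ℝ) 1) y)) 0 ≤
      Real.exp (level ξ.m ρ (cutLog (max (M : ℝ) 1)) 0 0) := fun M => by
    have h1 := exp_level_sub_le hm hρ (grow_cutLog (le_max_right (M : ℝ) 1)) grow_logCosh (hle M) 0
    have h2 : Real.exp ((1 - Vale.Agent.P168.Cascade.top ξ.m) *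
        level ξ.m ρ (cutLog (max (M : ℝ) 1)) 0 0) ≤ Real.exp |L| := by
      refine Real.exp_le_exp.2 ?_
      obtain ⟨A', hA'⟩ := Grow.level hm.pos ρ (grow_cutLog (le_max_right (M : ℝ) 1))
      have h3 := hA'.nonneg 0
      have h4 := hm.top_pos
      have h5 := hLM M
      nlinarith [le_abs_self L]
    have hs0 : 0 ≤ spread σ
        (fun y => Real.exp (logCosh y) - Real.exp (cutLog (max (M : ℝ) 1) y)) 0 :=
      integral_nonneg fun g => sub_nonneg.2 (Real.exp_le_exp.2 (hle M _))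
    linarith [mul_le_mul_of_nonneg_right h2 hs0]
  have hlim : Tendsto (fun M : ℕ => Real.exp (level ξ.m ρ (cutLog (max (M : ℝ) 1)) 0 0)) atTop
      (𝓝 (Real.exp L)) :=
    tendsto_of_tendsto_of_tendsto_of_le_of_le
      (by simpa using (hsp.const_mul (Real.exp |L|)).const_sub (Real.exp L)) tendsto_const_nhds
      hb fun M => Real.exp_le_exp.2 (hLM M)
  simpa using hlim.log (Real.exp_pos L).ne'

theorem siteY_zero (ξ : Path) (hq : ξ.q 0 = 0) (c : ℝ) (g₀ : Fin n → ℝ)
    (η : Fin ξ.r → Unit × (Fin n → ℝ)) :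
    siteY ξ (fun _ => 0) c g₀ η = ∏ i, 2 * Real.cosh
      (∑ p : Fin ξ.r, Real.sqrt (c ^ 2 * ξ.q p.succ - c ^ 2 * ξ.q p.castSucc) * (η p).2 i) := by
  have h1 : ∀ i, 2 * Real.cosh
      (∑ p : Fin ξ.r, Real.sqrt (c ^ 2 * ξ.q p.succ - c ^ 2 * ξ.q p.castSucc) * (η p).2 i) =
      ∑ b : Bool, Real.exp (c * (spin b * pathField ξ.q (g₀ i) fun p => (η p).2 i)) := by
    intro i
    have e : ∑ p : Fin ξ.r, Real.sqrt (c ^ 2 * ξ.q p.succ - c ^ 2 * ξ.q p.castSucc) * (η p).2 i =
        |c| * pathField ξ.q (g₀ i) fun p => (η p).2 i := by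
      simp only [pathField, hq, Real.sqrt_zero, zero_mul, zero_add, Finset.mul_sum, ← mul_sub,
        Real.sqrt_mul (sq_nonneg c), Real.sqrt_sq_eq_abs, mul_assoc]
    have hcosh : ∀ x : ℝ, Real.cosh (|c| * x) = Real.cosh (c * x) := fun x => by
      rcases abs_choice c with hc | hc <;> rw [hc] <;> simp
    rw [e, hcosh, Real.cosh_eq, Fintype.sum_bool]
    simp [spin]
    ring
  simp only [h1, Fintype.prod_sum, siteY, zero_add, Finset.mul_sum, Real.exp_sum]

theorem fieldLog_eq (ξ : Path) (hq : ξ.q 0 = 0) (nn : Fin ξ.r → ℕ) (c : ℝ) :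
    fieldLog (n := n) ξ nn c = ∫ t, Real.log (cascMean ξ.m nn
      (siteY (n := n) ξ (fun _ => 0) c 0) t) ∂cascLaw (markLaw (gam (Fin n))) ξ.r nn := by
  have hm : Measurable fun t : CascTree (Unit × (Fin n → ℝ)) ξ.r nn =>
      Real.log (cascMean ξ.m nn (siteY (n := n) ξ (fun _ => 0) c 0) t) :=
    ((Vale.Agent.P168.Cascade.measurable_cascSum _ nn
      ((measurable_siteY ξ _ c).comp (measurable_const.prodMk measurable_id))).div
        (Vale.Agent.P168.Cascade.measurable_cascSum _ nn measurable_const)).log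
  rw [← Vale.Agent.P168.Upper.integral_mp
    ((measurePreserving_snd (μ := gam (Fin n))).comp (mp_rootTree ξ nn)) hm]
  refine integral_congr_ae (Eventually.of_forall fun z => ?_)
  have hind : siteY ξ (fun _ => 0) c (rootTree ξ nn z).1 = siteY ξ (fun _ => 0) c 0 :=
    funext fun η => by rw [siteY_zero ξ hq, siteY_zero ξ hq]
  have hone : ∑ l, leafW ξ.r ξ.m nn z.1 l =
      cascSum ξ.r ξ.m nn (fun _ => 1) (rootTree ξ nn z).2 := by
    simp [cascSum_eq_sum_leaves, rootTree, leafW_att]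
  simp only [sum_all_joint, hind, hone]
  rfl

/-- The free energy of the fields alone. -/
theorem fieldLimit_holds : FieldLimitStmt := by
  intro ξ n c hq
  set ρ : Fin (ξ.r + 1) → ℝ := fun p => c ^ 2 * ξ.q p with hρ
  have hρm : Monotone ρ := fun a b hab => mul_le_mul_of_nonneg_left (ξ.isPath.mono hab) (sq_nonneg c)
  have hρ0 : ρ 0 = 0 := by simp [hρ, hq]
  set ℓ := (n : ℝ) * (Real.log 2 + level ξ.m ρ logCosh 0 0)
  have hval : (n : ℝ) * (Real.log 2 + siteValue ξ.m ρ + c ^ 2 * ξ.q (Fin.last ξ.r) / 2) = ℓ := by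
    have hs : siteValue ξ.m ρ =
        level ξ.m ρ logCosh 0 0 - c ^ 2 * ξ.q (Fin.last ξ.r) / 2 := by
      rw [siteValue, hρ0]
      simp
      rfl
    rw [hs]
    simp only [ℓ]
    ring
  rw [hval]
  simp only [fieldLog_eq ξ hq]
  set μ := markLaw (gam (Fin n))
  set Z : ℕ → Fin n → (Fin ξ.r → ℝ) → ℝ := fun M _ x => 2 * Real.exp (cutLog (max (M : ℝ) 1)
    (0 + ∑ p : Fin ξ.r, Real.sqrt (ρ p.succ - ρ p.castSucc) * x p)) with hZ
  set Y : (Fin ξ.r → Unit × (Fin n → ℝ)) → ℝ := siteY ξ (fun _ => 0) c 0 with hY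
  set Y' : ℕ → (Fin ξ.r → Unit × (Fin n → ℝ)) → ℝ :=
    fun M η => ∏ i, Z M i fun p => (η p).2 i with hY'
  set w : (Fin ξ.r → Unit × (Fin n → ℝ)) → Fin n → ℝ := fun η i =>
    Real.cosh (∑ p : Fin ξ.r, Real.sqrt (ρ p.succ - ρ p.castSucc) * (η p).2 i)
  have hw1 : ∀ η i, 1 ≤ w η i := fun η i => Real.one_le_cosh _
  have hYw : ∀ η, Y η = ∏ i, 2 * w η i := fun η => by rw [hY, siteY_zero ξ hq]
  have hY'w : ∀ M η, Y' M η = ∏ i, 2 * min (w η i) (max (M : ℝ) 1) := fun M η => by
    refine Finset.prod_congr rfl fun i _ => ?_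
    simp only [hZ, cutLog, zero_add,
      Real.exp_log (one_pos.trans_le (le_min (Real.one_le_cosh _) (le_max_right (M : ℝ) 1)))]
    rfl
  have hmin : ∀ (M : ℕ) η i, 1 ≤ min (w η i) (max (M : ℝ) 1) := fun M η i =>
    le_min (hw1 η i) (le_max_right _ _)
  have hY'1 : ∀ M η, 1 ≤ Y' M η := fun M η => by
    rw [hY'w]; exact Finset.one_le_prod fun i _ => by linarith [hmin M η i]
  have hY'le : ∀ M η, Y' M η ≤ Y η := fun M η => by
    rw [hY'w, hYw]
    exact Finset.prod_le_prod (fun i _ => by linarith [hmin M η i])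
      fun i _ => by linarith [min_le_left (w η i) (max (M : ℝ) 1)]
  have hZm : ∀ M i, Measurable (Z M i) := fun M i =>
    (((grow_cutLog (le_max_right (M : ℝ) 1)).meas.comp (by fun_prop)).exp).const_mul 2
  have hY'm : ∀ M, Measurable (Y' M) := fun M => Finset.measurable_prod _ fun i _ =>
    (hZm M i).comp (measurable_pi_lambda _ fun p =>
      (measurable_pi_apply i).comp (measurable_snd.comp (measurable_pi_apply p)))
  have hYm : Measurable Y := Measurable.comp
    (g := Function.uncurry (siteY (n := n) ξ (fun _ => 0) c))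
    (f := fun η : Fin ξ.r → Unit × (Fin n → ℝ) => ((0 : Fin n → ℝ), η))
    (measurable_siteY ξ _ c) (measurable_const.prodMk measurable_id)
  have hYi : Integrable Y (Measure.pi fun _ : Fin ξ.r => μ) := integrable_siteY ξ _ c 0
  have hcut : Tendsto (fun M : ℕ => ∫ η, (Y η - Y' M η) ∂Measure.pi fun _ : Fin ξ.r => μ) atTop
      (𝓝 0) := by
    have h := tendsto_integral_of_dominated_convergence
      (μ := Measure.pi fun _ : Fin ξ.r => μ) (F := fun (M : ℕ) η => Y η - Y' M η)
      (f := fun _ => 0) Y (fun M => (hYm.sub (hY'm M)).aestronglyMeasurable) hYi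
      (fun M => ae_of_all _ fun η => ?_) (ae_of_all _ fun η => ?_)
    · simpa using h
    · rw [Real.norm_eq_abs, abs_of_nonneg (sub_nonneg.2 (hY'le M η))]
      linarith [hY'1 M η]
    · refine tendsto_const_nhds.congr' ?_
      filter_upwards [Filter.eventually_ge_atTop ⌈∑ i, w η i⌉₊] with M hM
      have hsum : ∑ i, w η i ≤ (M : ℝ) := (Nat.le_ceil _).trans (by exact_mod_cast hM)
      have : ∀ i, min (w η i) (max (M : ℝ) 1) = w η i := fun i => min_eq_left
        ((Finset.single_le_sum (fun j _ => zero_le_one.trans (hw1 η j)) (Finset.mem_univ i)).trans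
          (hsum.trans (le_max_left _ _)))
      simp only [hY'w, hYw, this, sub_self]
  have hbd : ∀ M : ℕ, Tendsto (fun nn => ∫ t, Real.log (cascMean ξ.m nn (Y' M) t)
      ∂cascLaw μ ξ.r nn) (cascFilter ξ.r)
      (𝓝 ((n : ℝ) * (Real.log 2 + level ξ.m ρ (cutLog (max (M : ℝ) 1)) 0 0))) := by
    intro M
    have hC1 : (1 : ℝ) ≤ (2 * max (M : ℝ) 1) ^ n :=
      one_le_pow₀ (by linarith [le_max_right (M : ℝ) 1])
    have h := Vale.Agent.P168.Cascade.cascadeLog _ μ ξ.r ξ.m ξ.isPath.pos ξ.isPath.lt_one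
      ξ.isPath.strictMono (Y' M) ((2 * max (M : ℝ) 1) ^ n) (one_pos.trans_le hC1) (hY'm M)
      fun η => ⟨(inv_le_one_of_one_le₀ hC1).trans (hY'1 M η), by
        rw [hY'w]
        refine (Finset.prod_le_prod (fun i _ => by linarith [hmin M η i])
          (fun i _ => mul_le_mul_of_nonneg_left (min_le_right _ _) zero_le_two)).trans_eq ?_
        simp⟩
    have hgen : genNested μ ξ.m (Y' M) =
        ∏ _i : Fin n, 2 * Real.exp (level ξ.m ρ (cutLog (max (M : ℝ) 1)) 0 0) := by
      refine (Vale.Agent.P168.Upper.genNested_map μ (gam (Fin n)) measurePreserving_snd ξ.m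
        (fun η : Fin ξ.r → Fin n → ℝ => ∏ i, Z M i fun p => η p i)
        (Finset.measurable_prod _ fun i _ => (hZm M i).comp (by fun_prop))).trans ?_
      refine (Vale.Agent.P157.Parisi.Up.genNested_pi (gaussianReal 0 1) ξ.m ξ.isPath.pos n (Z M)
        (hZm M) fun i η => mul_nonneg zero_le_two (Real.exp_pos _).le).trans ?_
      refine Finset.prod_congr rfl fun i _ => ?_
      rw [Vale.Agent.P168.Upper.genNested_const_mul _ zero_le_two _ ξ.isPath.pos _
        fun _ => (Real.exp_pos _).le, genNested_exp ξ.isPath.pos ρ (grow_cutLog (le_max_right _ _))]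
    rw [hgen, Real.log_prod (fun i _ => (mul_pos two_pos (Real.exp_pos _)).ne')] at h
    simpa [Real.log_mul, Real.log_exp, mul_add] using h
  rw [Metric.tendsto_nhds]
  intro ε hε
  have hlvl := ((tendsto_level_cut ξ hρm).const_add (Real.log 2)).const_mul (n : ℝ)
  obtain ⟨M, hM1, hM2⟩ := ((hcut.eventually (gt_mem_nhds (by linarith : (0 : ℝ) < ε / 3))).and
    (Metric.tendsto_nhds.1 hlvl (ε / 3) (by linarith))).exists
  filter_upwards [Metric.tendsto_nhds.1 (hbd M) (ε / 3) (by linarith), eventually_pos ξ.r]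
    with nn hnn hn
  have hd := abs_integral_log_sub_le (gam (Fin n)) (m := ξ.m) hn hYm (hY'm M) (hY'1 M) (hY'le M) hYi
  rw [Real.dist_eq] at hnn hM2 ⊢
  have ha := abs_le.1 hd
  have hb := abs_lt.1 hnn
  have hc := abs_lt.1 hM2
  rw [abs_lt]
  constructor <;> linarith [ha.1, ha.2, hb.1, hb.2, hc.1, hc.2]

end Vale.Agent.P146.Div.Limit

namespace Vale.Agent.P146.Div

/-- The limit law of the trees of replicas under fields. -/
theorem shapeLimit : ShapeLimitStmt := Limit.shapeLimit_holds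

/-- The limit free energy of the fields alone. -/
theorem fieldLimit : FieldLimitStmt := Limit.fieldLimit_holds

end Vale.Agent.P146.Div
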