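import Vale.Agent.P146.Div.Defs
import Vale.Agent.P168.Cascade.Shapes

/-!
Independent signs on the nodes of a tree detect the meets of its leaves.
-/

noncomputable section

open MeasureTheory ProbabilityTheory
open scoped BigOperators

namespace Vale.Agent.P146.Div.Limit

open Vale.Agent.P146 (spin)
open Vale.Agent.P157.Parisi.Up (Node node node_zero node_succ)
open Vale.Agent.P168 (Shape shapeRep)
open Vale.Agent.P168.Cascade (Leaf leafMeet IsTree mem_class)

variable {r k : ℕ}

/-- A fair sign. -/
def coin : Measure Bool := (PMF.uniformOfFintype Bool).toMeasure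

instance : IsProbabilityMeasure coin := by unfold coin; infer_instance

theorem integral_coin (f : Bool → ℝ) : ∫ b, f b ∂coin = (f true + f false) / 2 := by
  rw [coin, PMF.integral_eq_sum]
  simp
  ring

/-- The mean of a product of two signs. -/
theorem integral_sign_pair {κ : Type} [Fintype κ] [DecidableEq κ] (i j : κ) :
    ∫ x : κ → Bool, spin (x i) * spin (x j) ∂(Measure.pi fun _ => coin) =
      if i = j then 1 else 0 := by
  have e : (fun x : κ → Bool => spin (x i) * spin (x j)) =
      fun x => ∏ c, (if c = i then spin (x c) else 1) * (if c = j then spin (x c) else 1) := by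
    funext x
    rw [Finset.prod_mul_distrib, Fintype.prod_ite_eq', Fintype.prod_ite_eq']
  rw [e, integral_fintype_prod_eq_prod (μ := fun _ : κ => coin)
    (fun c (b : Bool) => (if c = i then spin b else 1) * (if c = j then spin b else 1))]
  simp only [integral_coin]
  split_ifs with h
  · subst h
    refine Finset.prod_eq_one fun c _ => ?_
    by_cases hc : c = i <;> simp [hc, spin]
  · refine Finset.prod_eq_zero (Finset.mem_univ i) ?_
    simp [h, spin]

/-- The factor of one pair threshold read at the marks of one leaf. -/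
def sfac (p : ℕ) (η : Fin r → Bool) : ℝ :=
  if p = 0 then 1 else if h : p - 1 < r then spin (η ⟨p - 1, h⟩) else 0

theorem abs_sfac_le (p : ℕ) (η : Fin r → Bool) : |sfac p η| ≤ 1 := by
  unfold sfac
  split_ifs with h1 h2
  · simp
  · cases η ⟨p - 1, h2⟩ <;> simp [spin]
  · simp

/-- The factors of all pair thresholds read at one replica. -/
def signObs (P : Fin k × Fin k → ℕ) (a : Fin k) (η : Fin r → Fin k × Fin k → Bool) : ℝ :=
  ∏ e, (if e.1 = a then sfac (P e) (fun i => η i e) else 1) *
    (if e.2 = a then sfac (P e) (fun i => η i e) else 1)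

theorem abs_signObs_le (P : Fin k × Fin k → ℕ) (a : Fin k) (η : Fin r → Fin k × Fin k → Bool) :
    |signObs P a η| ≤ 1 := by
  rw [signObs, Finset.abs_prod]
  refine Finset.prod_le_one (fun e _ => abs_nonneg _) fun e _ => ?_
  rw [abs_mul]
  refine mul_le_one₀ ?_ (abs_nonneg _) ?_ <;> split_ifs <;>
    first | exact abs_sfac_le _ _ | simp

theorem prod_signObs (P : Fin k × Fin k → ℕ) (η : Fin k → Fin r → Fin k × Fin k → Bool) :
    ∏ a, signObs P a (η a) =
      ∏ e, sfac (P e) (fun i => η e.1 i e) * sfac (P e) (fun i => η e.2 i e) := by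
  unfold signObs
  rw [Finset.prod_comm]
  refine Finset.prod_congr rfl fun e _ => ?_
  rw [Finset.prod_mul_distrib]
  simp

/-- The indicator that every pair meets at or above its threshold. -/
def thr (P : Fin k × Fin k → ℕ) (v : Shape r k) : ℝ :=
  ∏ e, if P e ≤ (v e.1 e.2).val then 1 else 0

theorem integral_sfac_pair {κ : Type} [Fintype κ] [DecidableEq κ] (p : ℕ) (x y : Fin r → κ)
    {d : ℕ} (hd : d ≤ r) (h : ∀ i, x i = y i ↔ i.val < d) :
    ∫ ω : κ → Bool, sfac p (fun i => ω (x i)) * sfac p (fun i => ω (y i))
      ∂(Measure.pi fun _ => coin) = if p ≤ d then 1 else 0 := by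
  by_cases hp : p = 0
  · simp [sfac, hp]
  by_cases hr : p - 1 < r
  · simp only [sfac, if_neg hp, dif_pos hr, integral_sign_pair]
    have hiff : x ⟨p - 1, hr⟩ = y ⟨p - 1, hr⟩ ↔ p ≤ d := by
      rw [h]; simp only; omega
    simp only [hiff]
  · simp only [sfac, if_neg hp, dif_neg hr, mul_zero, integral_zero]
    rw [if_neg (by omega)]

/-- Signs at positions that coincide exactly below the meets give threshold indicators. -/
theorem integral_signObs {κ : Type} [Fintype κ] (P : Fin k × Fin k → ℕ) (pos : Fin k → Fin r → κ)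
    (v : Shape r k) (h : ∀ a b i, pos a i = pos b i ↔ i.val < (v a b).val) :
    ∫ ω : κ → Fin k × Fin k → Bool, ∏ a, signObs P a (fun i => ω (pos a i))
      ∂(Measure.pi fun _ => Measure.pi fun _ => coin) = thr P v := by
  classical
  simp only [prod_signObs]
  have hmp := Vale.Agent.P168.Upper.mp_flip (ι := κ) (κ := Fin k × Fin k) coin
  have hm : Measurable fun y : Fin k × Fin k → κ → Bool => ∏ e, sfac (P e) (fun i => y e (pos e.1 i)) *
      sfac (P e) (fun i => y e (pos e.2 i)) := measurable_of_finite _
  rw [show ∫ ω : κ → Fin k × Fin k → Bool, ∏ e, sfac (P e) (fun i => ω (pos e.1 i) e) *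
      sfac (P e) (fun i => ω (pos e.2 i) e) ∂(Measure.pi fun _ => Measure.pi fun _ => coin) = _
    from Vale.Agent.P168.Upper.integral_mp hmp hm,
    integral_fintype_prod_eq_prod (μ := fun _ : Fin k × Fin k => Measure.pi fun _ : κ => coin)
      (fun e (y : κ → Bool) => sfac (P e) (fun i => y (pos e.1 i)) *
        sfac (P e) (fun i => y (pos e.2 i)))]
  exact Finset.prod_congr rfl fun e _ =>
    integral_sfac_pair (P e) _ _ (Nat.le_of_lt_succ (v e.1 e.2).isLt) (h e.1 e.2)

/-- Every function of a shape is a combination of threshold indicators. -/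
theorem expand_thr (G : Shape r k → ℝ) (v : Shape r k) :
    G v = ∑ w : Shape r k, ∑ t ∈ (Finset.univ : Finset (Fin k × Fin k)).powerset,
      G w * (-1) ^ (Finset.univ \ t).card *
        thr (fun e => if e ∈ t then (w e.1 e.2).val else (w e.1 e.2).val + 1) v := by
  classical
  have hw : ∀ w : Shape r k, (if v = w then (1 : ℝ) else 0) =
      ∏ e : Fin k × Fin k, ((if (w e.1 e.2).val ≤ (v e.1 e.2).val then (1 : ℝ) else 0) +
        -(if (w e.1 e.2).val + 1 ≤ (v e.1 e.2).val then 1 else 0)) := by
    intro w
    have e1 : ∀ e : Fin k × Fin k, (if (w e.1 e.2).val ≤ (v e.1 e.2).val then (1 : ℝ) else 0) +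
        -(if (w e.1 e.2).val + 1 ≤ (v e.1 e.2).val then 1 else 0) =
          if v e.1 e.2 = w e.1 e.2 then 1 else 0 := by
      intro e
      simp only [Fin.ext_iff]
      split_ifs <;> first | omega | simp
    simp only [e1, Finset.prod_boole]
    simp [funext_iff, Prod.forall]
  calc G v = ∑ w, G w * (if v = w then (1 : ℝ) else 0) := by simp
    _ = _ := Finset.sum_congr rfl fun w _ => by
      rw [hw, Finset.prod_add, Finset.mul_sum]
      refine Finset.sum_congr rfl fun t _ => ?_
      rw [Finset.prod_neg, mul_assoc]
      congr 1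
      rw [mul_left_comm]
      congr 1
      rw [thr, ← Finset.prod_sdiff (Finset.subset_univ t), mul_comm]
      congr 1
      · exact Finset.prod_congr rfl fun e he => by rw [if_neg (Finset.mem_sdiff.1 he).2]
      · exact Finset.prod_congr rfl fun e he => by rw [if_pos he]

theorem leafMeet_le : ∀ (r : ℕ) (nn : Fin r → ℕ) (l l' : Leaf r nn), leafMeet r nn l l' ≤ r
  | 0, _, _, _ => le_refl 0
  | r + 1, nn, l, l' => by
    simp only [leafMeet]
    split_ifs
    · exact Nat.succ_le_succ (leafMeet_le r _ _ _)
    · exact Nat.zero_le _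

theorem leafShape_val (nn : Fin r → ℕ) (l : Fin k → Leaf r nn) (a b : Fin k) :
    (leafShape nn l a b).val = leafMeet r nn (l a) (l b) := by
  simp [leafShape, Fin.ofNat, Nat.mod_eq_of_lt (Nat.lt_succ_of_le (leafMeet_le r nn (l a) (l b)))]

theorem node_eq_iff : ∀ {r : ℕ} (nn : Fin r → ℕ) (l l' : Leaf r nn) (i : Fin r),
    node nn l i = node nn l' i ↔ i.val < leafMeet r nn l l'
  | 0, _, _, _, i => i.elim0
  | r + 1, nn, l, l', i => by
    have ih := node_eq_iff (Fin.tail nn) (Fin.tail l) (Fin.tail l')
    by_cases h0 : l 0 = l' 0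
    · simp only [leafMeet, if_pos h0]
      cases i using Fin.cases with
      | zero =>
        rw [node_zero, node_zero, h0]
        exact iff_of_true rfl (Nat.succ_pos _)
      | succ p =>
        rw [node_succ, node_succ, h0, Fin.val_succ, Nat.add_lt_add_iff_right, ← ih p]
        constructor
        · intro h
          exact Option.some.inj (congrArg Prod.snd h)
        · intro h
          rw [h]
    · simp only [leafMeet, if_neg h0, Nat.not_lt_zero, iff_false]
      cases i using Fin.cases with
      | zero => rw [node_zero, node_zero]; exact fun h => h0 (congrArg Prod.fst h)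
      | succ p => rw [node_succ, node_succ]; exact fun h => h0 (congrArg Prod.fst h)

/-- Representatives of two replicas agree exactly below their meet. -/
theorem rep_eq_iff_meet {v : Shape r k} (hv : IsTree v) (a b : Fin k) (i : Fin r) :
    shapeRep v (i.val + 1) a = shapeRep v (i.val + 1) b ↔ i.val < (v a b).val := by
  constructor
  · intro h
    have h1 := hv.class_eq (hv.rep_mem (i.val + 1) a)
    have h2 := hv.class_eq (hv.rep_mem (i.val + 1) b)
    rw [← h, h1] at h2
    have hb := hv.self_mem (i.val + 1) b
    rw [← h2, mem_class, if_pos (by omega)] at hb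
    omega
  · intro h
    exact (hv.rep_congr (by rw [mem_class, if_pos (by omega)]; omega)).symm

end Vale.Agent.P146.Div.Limit
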