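import Vale.Agent.P146.Div.Limit.Bounded

/-!
Cutting off marks that are unbounded above.
-/

noncomputable section

open MeasureTheory ProbabilityTheory Filter Topology
open scoped BigOperators

namespace Vale.Agent.P146.Div.Limit

open Vale.Agent.P157.Parisi.Up (Node node node_injective att mp_att leafW_att leafMarks_att)
open Vale.Agent.P168 (Shape shapeProb CascTree cascLaw cascSum cascMean cascFilter)
open Vale.Agent.P168.Cascade (Exps Bdd Leaf leafW leafMarks GoodTree cascSum_eq_sum_leaves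
  eventually_pos leafW_pos ae_good cascSum_one_pos)

theorem sum_abs_prod_sub_le {L : Type} [Fintype L] {W W' : L → ℝ} (h : ∀ l, 0 ≤ W l)
    (h' : ∀ l, 0 ≤ W' l) (hs : ∑ l, W l ≤ 1) (hs' : ∑ l, W' l ≤ 1) :
    ∀ k : ℕ, ∑ x : Fin k → L, |(∏ a, W (x a)) - ∏ a, W' (x a)| ≤ k * ∑ l, |W l - W' l|
  | 0 => by simp
  | k + 1 => by
    classical
    have ih := sum_abs_prod_sub_le h h' hs hs' k
    have hd : 0 ≤ ∑ l, |W l - W' l| := Finset.sum_nonneg fun _ _ => abs_nonneg _
    rw [← (Fin.consEquiv fun _ : Fin (k + 1) => L).sum_comp, Fintype.sum_prod_type]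
    simp only [Fin.prod_univ_succ, Fin.consEquiv, Equiv.coe_fn_mk, Fin.cons_zero, Fin.cons_succ]
    have hp : ∀ l (x : Fin k → L), |W l * (∏ a, W (x a)) - W' l * ∏ a, W' (x a)| ≤
        |W l - W' l| * (∏ a, W (x a)) + W' l * |(∏ a, W (x a)) - ∏ a, W' (x a)| := fun l x => by
      have e : W l * (∏ a, W (x a)) - W' l * ∏ a, W' (x a) =
          (W l - W' l) * (∏ a, W (x a)) + W' l * ((∏ a, W (x a)) - ∏ a, W' (x a)) := by ring
      rw [e]
      refine (abs_add_le _ _).trans (le_of_eq ?_)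
      rw [abs_mul, abs_mul, abs_of_nonneg (Finset.prod_nonneg fun a _ => h (x a)),
        abs_of_nonneg (h' l)]
    refine (Finset.sum_le_sum fun l _ => Finset.sum_le_sum fun x _ => hp l x).trans ?_
    simp only [Finset.sum_add_distrib, ← Finset.mul_sum, ← Finset.sum_mul, ← Fintype.sum_pow]
    push_cast
    calc (∑ l, |W l - W' l|) * (∑ l, W l) ^ k +
          (∑ l, W' l) * ∑ x : Fin k → L, |(∏ a, W (x a)) - ∏ a, W' (x a)|
        ≤ (∑ l, |W l - W' l|) * 1 + 1 * ((k : ℝ) * ∑ l, |W l - W' l|) :=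
          add_le_add (mul_le_mul_of_nonneg_left
              (pow_le_one₀ (Finset.sum_nonneg fun l _ => h l) hs) hd)
            (mul_le_mul hs' ih (Finset.sum_nonneg fun _ _ => abs_nonneg _) zero_le_one)
      _ = _ := by ring

theorem abs_treeAvg_sub_le {r k : ℕ} (nn : Fin r → ℕ) {W W' : Leaf r nn → ℝ} (h : ∀ l, 0 ≤ W l)
    (h' : ∀ l, 0 ≤ W' l) (hs : ∑ l, W l ≤ 1) (hs' : ∑ l, W' l ≤ 1) (G : Shape r k → ℝ) :
    |treeAvg nn W G - treeAvg nn W' G| ≤ (∑ v, |G v|) * (k * ∑ l, |W l - W' l|) := by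
  rw [treeAvg, treeAvg, ← Finset.sum_sub_distrib]
  refine (Finset.abs_sum_le_sum_abs _ _).trans ?_
  refine le_trans (Finset.sum_le_sum fun x _ => ?_) ((Finset.mul_sum _ _ _).symm.trans_le
    (mul_le_mul_of_nonneg_left (sum_abs_prod_sub_le h h' hs hs' k)
      (Finset.sum_nonneg fun v _ => abs_nonneg (G v))))
  rw [← sub_mul, abs_mul, mul_comm]
  exact mul_le_mul_of_nonneg_right (Finset.single_le_sum (fun v _ => abs_nonneg (G v))
    (Finset.mem_univ _)) (abs_nonneg _)

variable {X : Type} [MeasurableSpace X] (μ : Measure X) [IsProbabilityMeasure μ] {r k : ℕ}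

/-- The marks carrying no weight besides a variable of `μ`. -/
abbrev markLaw : Measure (Unit × X) := (Measure.dirac ()).prod μ

theorem mp_leafMarks (m : Fin r → ℝ) (nn : Fin r → ℕ) (l : Leaf r nn) :
    MeasurePreserving (fun t => leafMarks r nn t l) (cascLaw (markLaw μ) r nn)
      (Measure.pi fun _ : Fin r => markLaw μ) := by
  have h0 : MeasurePreserving (fun x : X => ((), x)) μ (markLaw μ) :=
    ⟨measurable_const.prodMk measurable_id, by rw [markLaw, Measure.dirac_prod]⟩
  have h1 := ((Vale.Agent.P168.Upper.mp_pi (ι := Fin r) h0).comp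
    (Vale.Agent.P168.Upper.mp_precomp μ (node_injective nn l))).comp
    (measurePreserving_snd (μ := cascLaw (Measure.dirac ()) r nn))
  have hm : Measurable fun t : CascTree (Unit × X) r nn => leafMarks r nn t l :=
    Vale.Agent.P168.Cascade.measurable_leafMarks r nn l
  refine ⟨hm, ?_⟩
  rw [← (mp_att (Measure.dirac ()) μ r nn).map_eq,
    Measure.map_map hm (mp_att (Measure.dirac ()) μ r nn).measurable, ← h1.map_eq]
  congr 1
  funext t p
  exact leafMarks_att r nn t l p

/-- The mean of the cascade average is the mean of one leaf. -/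
theorem cascMean_mean (m : Fin r → ℝ) (nn : Fin r → ℕ) (hn : ∀ i, 0 < nn i)
    {D : (Fin r → Unit × X) → ℝ} (hDm : Measurable D) (hD : ∀ ω, 0 ≤ D ω)
    (hi : Integrable D (Measure.pi fun _ : Fin r => markLaw μ)) :
    Integrable (cascMean m nn D) (cascLaw (markLaw μ) r nn) ∧
      ∫ t, cascMean m nn D t ∂cascLaw (markLaw μ) r nn ≤
        ∫ ω, D ω ∂Measure.pi fun _ : Fin r => markLaw μ := by
  have hmp := mp_att (Measure.dirac ()) μ r nn
  have hmeas : Measurable (cascMean m nn D) :=
    (Vale.Agent.P168.Cascade.measurable_cascSum m nn hDm).div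
      (Vale.Agent.P168.Cascade.measurable_cascSum m nn measurable_const)
  have hl : ∀ l, Integrable (fun t => D (leafMarks r nn t l)) (cascLaw (markLaw μ) r nn) :=
    fun l => (mp_leafMarks μ m nn l).integrable_comp_of_integrable hi
  have hb : ∀ t, GoodTree r nn t → ‖cascMean m nn D t‖ ≤ ∑ l, D (leafMarks r nn t l) := by
    intro t ht
    have hw := fun l => (leafW_pos r m nn t l ht).le
    have h1 := cascSum_one_pos m hn ht
    rw [Real.norm_eq_abs, cascMean, cascSum_eq_sum_leaves,
      abs_of_nonneg (div_nonneg (Finset.sum_nonneg fun l _ => mul_nonneg (hw l) (hD _)) h1.le),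
      div_le_iff₀ h1, Finset.sum_mul]
    refine Finset.sum_le_sum fun l _ => ?_
    rw [mul_comm]
    refine mul_le_mul_of_nonneg_left ?_ (hD _)
    rw [cascSum_eq_sum_leaves]
    simpa using Finset.single_le_sum (fun l _ => hw l) (Finset.mem_univ l)
  have hI : Integrable (cascMean m nn D) (cascLaw (markLaw μ) r nn) :=
    (integrable_finsetSum _ fun l _ => hl l).mono' hmeas.aestronglyMeasurable
      ((ae_good _ r nn).mono hb)
  refine ⟨hI, ?_⟩
  have hI2 : Integrable (fun z => cascMean m nn D (att r nn z))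
      ((cascLaw (Measure.dirac ()) r nn).prod (Measure.pi fun _ : Node r nn => μ)) :=
    (hmp.integrable_comp hI.aestronglyMeasurable).2 hI
  rw [← Vale.Agent.P168.Upper.integral_mp hmp hmeas, integral_prod _ hI2]
  refine (integral_mono_ae (g := fun _ => ∫ ω, D ω ∂Measure.pi fun _ : Fin r => markLaw μ)
    hI2.integral_prod_left (integrable_const _)
    ((ae_good _ r nn).mono fun t ht => ?_)).trans_eq (by simp)
  have h0 : MeasurePreserving (fun x : X => ((), x)) μ (markLaw μ) :=
    ⟨measurable_const.prodMk measurable_id, by rw [markLaw, Measure.dirac_prod]⟩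
  have hg : ∀ l, MeasurePreserving (fun γ : Node r nn → X => fun p => ((), γ (node nn l p)))
      (Measure.pi fun _ => μ) (Measure.pi fun _ : Fin r => markLaw μ) := fun l =>
    (Vale.Agent.P168.Upper.mp_pi (ι := Fin r) h0).comp
      (Vale.Agent.P168.Upper.mp_precomp μ (node_injective nn l))
  have e : ∀ γ : Node r nn → X, cascMean m nn D (att r nn (t, γ)) =
      ∑ l, leafW r m nn t l / cascSum r m nn (fun _ => 1) t *
        D (fun p => ((), γ (node nn l p))) := by
    intro γ
    have hd : ∀ l, leafMarks r nn (att r nn (t, γ)) l = fun p => ((), γ (node nn l p)) :=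
      fun l => funext fun p => leafMarks_att r nn (t, γ) l p
    simp only [cascMean, cascSum_eq_sum_leaves, leafW_att, hd, Finset.sum_div]
    exact Finset.sum_congr rfl fun l _ => by ring
  have hDi : ∀ l, Integrable (fun γ : Node r nn → X => D fun p => ((), γ (node nn l p)))
      (Measure.pi fun _ => μ) := fun l => (hg l).integrable_comp_of_integrable hi
  simp only [e]
  rw [integral_finsetSum _ fun l _ => (hDi l).const_mul _]
  simp only [integral_const_mul, fun l => Vale.Agent.P168.Upper.integral_mp (hg l) hDm,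
    ← Finset.sum_mul, ← Finset.sum_div]
  refine mul_le_of_le_one_left (integral_nonneg hD) ?_
  simp only [cascSum_eq_sum_leaves, mul_one]
  exact div_self_le_one _

variable {m : Fin r → ℝ} {nn : Fin r → ℕ} {lo : ℝ}

/-- Cutting off moves the leaf probabilities by the mean of what is cut. -/
theorem sum_abs_leafP_sub_le (hn : ∀ i, 0 < nn i) {β : Type} (hlo : 0 < lo)
    {Y Y' : (Fin r → β) → ℝ} (h1 : ∀ ω, lo ≤ Y' ω) (h2 : ∀ ω, Y' ω ≤ Y ω)
    {t : CascTree β r nn} (ht : GoodTree r nn t) :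
    ∑ l, |leafP m nn Y t l - leafP m nn Y' t l| ≤
      2 / lo * cascMean m nn (fun ω => Y ω - Y' ω) t := by
  have hw := fun l => (leafW_pos r m nn t l ht).le
  have hS1 := cascSum_one_pos m hn ht
  set S := cascSum r m nn Y t with hS
  set S' := cascSum r m nn Y' t with hS'
  set D := cascSum r m nn (fun ω => Y ω - Y' ω) t with hD
  set w := cascSum r m nn (fun _ => (1 : ℝ)) t with hw1
  have hSS : S = S' + D := by
    simp only [hS, hS', hD, cascSum_eq_sum_leaves, ← Finset.sum_add_distrib]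
    exact Finset.sum_congr rfl fun l _ => by ring
  have hD0 : 0 ≤ D := by
    rw [hD, cascSum_eq_sum_leaves]
    exact Finset.sum_nonneg fun l _ => mul_nonneg (hw l) (sub_nonneg.2 (h2 _))
  have hlow : lo * w ≤ S' := by
    simp only [hw1, hS', cascSum_eq_sum_leaves, Finset.mul_sum]
    refine Finset.sum_le_sum fun l _ => ?_
    have := mul_le_mul_of_nonneg_left (h1 (leafMarks r nn t l)) (hw l)
    linarith
  have hS'0 : 0 < S' := (mul_pos hlo hS1).trans_le hlow
  have hS0 : 0 < S := by linarith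
  have hp : ∀ l, |leafP m nn Y t l - leafP m nn Y' t l| ≤
      leafW r m nn t l * (Y (leafMarks r nn t l) - Y' (leafMarks r nn t l)) / S +
        leafW r m nn t l * Y' (leafMarks r nn t l) * (1 / S' - 1 / S) := by
    intro l
    have e : leafP m nn Y t l - leafP m nn Y' t l =
        leafW r m nn t l * (Y (leafMarks r nn t l) - Y' (leafMarks r nn t l)) / S +
          -(leafW r m nn t l * Y' (leafMarks r nn t l) * (1 / S' - 1 / S)) := by
      simp only [leafP]; rw [← hS, ← hS']; ring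
    rw [e]
    refine (abs_add_le _ _).trans (le_of_eq ?_)
    rw [abs_neg, abs_of_nonneg (div_nonneg (mul_nonneg (hw l) (sub_nonneg.2 (h2 _))) hS0.le),
      abs_of_nonneg (mul_nonneg (mul_nonneg (hw l) (hlo.le.trans (h1 _)))
        (sub_nonneg.2 (one_div_le_one_div_of_le hS'0 (by linarith))))]
  refine (Finset.sum_le_sum fun l _ => hp l).trans ?_
  rw [Finset.sum_add_distrib, ← Finset.sum_div, ← Finset.sum_mul, ← cascSum_eq_sum_leaves,
    ← cascSum_eq_sum_leaves r m nn (fun ω => Y ω - Y' ω)]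
  rw [cascMean, ← hD, ← hS', ← hw1]
  have e : D / S + S' * (1 / S' - 1 / S) = 2 * D / S := by
    field_simp; rw [hSS]; ring
  rw [e, div_mul_div_comm]
  exact div_le_div_of_nonneg_left (by positivity) (mul_pos hlo hS1) (by linarith)

theorem log_cascMean_bounds (hn : ∀ i, 0 < nn i) {β : Type} (hlo : 1 ≤ lo)
    {Y : (Fin r → β) → ℝ} (h1 : ∀ ω, lo ≤ Y ω) {t : CascTree β r nn} (ht : GoodTree r nn t) :
    1 ≤ cascMean m nn Y t ∧ |Real.log (cascMean m nn Y t)| ≤ cascMean m nn Y t := by
  have hw := fun l => (leafW_pos r m nn t l ht).le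
  have hS1 := cascSum_one_pos m hn ht
  have h : 1 ≤ cascMean m nn Y t := by
    rw [cascMean, one_le_div hS1]
    simp only [cascSum_eq_sum_leaves]
    exact Finset.sum_le_sum fun l _ => mul_le_mul_of_nonneg_left (hlo.trans (h1 _)) (hw l)
  refine ⟨h, ?_⟩
  rw [abs_of_nonneg (Real.log_nonneg h)]
  exact (Real.log_le_sub_one_of_pos (one_pos.trans_le h)).trans (by linarith)

/-- Cutting off moves the logarithm of the cascade average by the mean of what is cut. -/
theorem abs_integral_log_sub_le (hn : ∀ i, 0 < nn i) {Y Y' : (Fin r → Unit × X) → ℝ}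
    (hYm : Measurable Y) (hYm' : Measurable Y') (h1 : ∀ ω, 1 ≤ Y' ω) (h2 : ∀ ω, Y' ω ≤ Y ω)
    (hi : Integrable Y (Measure.pi fun _ : Fin r => markLaw μ)) :
    |(∫ t, Real.log (cascMean m nn Y t) ∂cascLaw (markLaw μ) r nn) -
        ∫ t, Real.log (cascMean m nn Y' t) ∂cascLaw (markLaw μ) r nn| ≤
      ∫ ω, (Y ω - Y' ω) ∂Measure.pi fun _ : Fin r => markLaw μ := by
  have hi' : Integrable Y' (Measure.pi fun _ : Fin r => markLaw μ) :=
    hi.mono' hYm'.aestronglyMeasurable (ae_of_all _ fun ω => by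
      rw [Real.norm_eq_abs, abs_of_nonneg (zero_le_one.trans (h1 ω))]; exact h2 ω)
  have hY1 : ∀ ω, 1 ≤ Y ω := fun ω => (h1 ω).trans (h2 ω)
  obtain ⟨hA, -⟩ := cascMean_mean μ m nn hn hYm (fun ω => zero_le_one.trans (hY1 ω)) hi
  obtain ⟨hA', -⟩ := cascMean_mean μ m nn hn hYm' (fun ω => zero_le_one.trans (h1 ω)) hi'
  obtain ⟨hD, hDle⟩ := cascMean_mean μ m nn hn (hYm.sub hYm') (fun ω => sub_nonneg.2 (h2 ω))
    (hi.sub hi')
  have hL : ∀ {Z : (Fin r → Unit × X) → ℝ}, Measurable Z → (∀ ω, 1 ≤ Z ω) →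
      Integrable (cascMean m nn Z) (cascLaw (markLaw μ) r nn) →
      Integrable (fun t => Real.log (cascMean m nn Z t)) (cascLaw (markLaw μ) r nn) :=
    fun {Z} hZ hZ1 hI => hI.mono'
      (((Vale.Agent.P168.Cascade.measurable_cascSum m nn hZ).div
        (Vale.Agent.P168.Cascade.measurable_cascSum m nn measurable_const)).log).aestronglyMeasurable
      ((ae_good _ r nn).mono fun t ht => (log_cascMean_bounds hn le_rfl hZ1 ht).2)
  rw [← integral_sub (hL hYm hY1 hA) (hL hYm' h1 hA')]
  refine abs_integral_le_integral_abs.trans ((integral_mono_ae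
    ((hL hYm hY1 hA).sub (hL hYm' h1 hA')).abs hD ((ae_good _ r nn).mono fun t ht => ?_)).trans hDle)
  obtain ⟨ha', -⟩ := log_cascMean_bounds (m := m) hn le_rfl h1 ht
  have hw := fun l => (leafW_pos r m nn t l ht).le
  have hsum : cascMean m nn Y t = cascMean m nn Y' t + cascMean m nn (fun ω => Y ω - Y' ω) t := by
    simp only [cascMean, ← add_div, cascSum_eq_sum_leaves, ← Finset.sum_add_distrib]
    congr 1
    exact Finset.sum_congr rfl fun l _ => by ring
  have hd0 : 0 ≤ cascMean m nn (fun ω => Y ω - Y' ω) t := by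
    refine div_nonneg ?_ (cascSum_one_pos m hn ht).le
    rw [cascSum_eq_sum_leaves]
    exact Finset.sum_nonneg fun l _ => mul_nonneg (hw l) (sub_nonneg.2 (h2 _))
  have hge : Real.log (cascMean m nn Y' t) ≤ Real.log (cascMean m nn Y t) :=
    Real.log_le_log (by linarith) (by linarith)
  show |Real.log (cascMean m nn Y t) - Real.log (cascMean m nn Y' t)| ≤ _
  rw [abs_of_nonneg (sub_nonneg.2 hge), ← Real.log_div (by linarith) (by linarith)]
  refine (Real.log_le_sub_one_of_pos (div_pos (by linarith) (by linarith))).trans ?_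
  have hq : cascMean m nn Y t / cascMean m nn Y' t - 1 =
      cascMean m nn (fun ω => Y ω - Y' ω) t / cascMean m nn Y' t := by
    rw [hsum]; field_simp; ring
  rw [hq]
  exact div_le_self hd0 ha'

theorem tendsto_cut {Ω : Type} [MeasurableSpace Ω] {ρ : Measure Ω} {Y : Ω → ℝ}
    (hYm : Measurable Y) (hi : Integrable Y ρ) (hlo : 0 < lo) (h1 : ∀ ω, lo ≤ Y ω) :
    Tendsto (fun M : ℕ => ∫ ω, (Y ω - min (Y ω) (max (M : ℝ) lo)) ∂ρ) atTop (𝓝 0) := by
  have h := tendsto_integral_of_dominated_convergence (μ := ρ)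
    (F := fun (M : ℕ) ω => Y ω - min (Y ω) (max (M : ℝ) lo)) (f := fun _ => 0) Y
    (fun M => (hYm.sub (hYm.min measurable_const)).aestronglyMeasurable) hi
    (fun M => ae_of_all _ fun ω => ?_) (ae_of_all _ fun ω => ?_)
  · simpa using h
  · rw [Real.norm_eq_abs, abs_of_nonneg (sub_nonneg.2 (min_le_left _ _))]
    linarith [le_min (hlo.le.trans (h1 ω)) (hlo.le.trans (le_max_right (M : ℝ) lo))]
  · refine tendsto_const_nhds.congr' ?_
    filter_upwards [Filter.eventually_ge_atTop ⌈Y ω⌉₊] with M hM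
    have : Y ω ≤ (M : ℝ) := (Nat.le_ceil _).trans (by exact_mod_cast hM)
    rw [min_eq_left (this.trans (le_max_left _ _)), sub_self]

/-- Integrable marks bounded below leave the law of the trees of replicas unchanged. -/
theorem shape_tendsto (hm : Exps m) {Y : (Fin r → Unit × X) → ℝ} (hYm : Measurable Y)
    (hlo : 0 < lo) (h1 : ∀ ω, lo ≤ Y ω)
    (hi : Integrable Y (Measure.pi fun _ : Fin r => markLaw μ)) (G : Shape r k → ℝ) :
    Tendsto (fun nn => ∫ t, treeAvg nn (leafP m nn Y t) G ∂cascLaw (markLaw μ) r nn) (cascFilter r)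
      (𝓝 (∑ v, shapeProb m k v * G v)) := by
  set K := (∑ v, |G v|) * k * (2 / lo) with hK
  have hK0 : 0 ≤ K := mul_nonneg (mul_nonneg (Finset.sum_nonneg fun v _ => abs_nonneg _)
    (Nat.cast_nonneg _)) (div_nonneg zero_le_two hlo.le)
  rw [Metric.tendsto_nhds]
  intro ε hε
  obtain ⟨M, hM⟩ := ((tendsto_cut (ρ := Measure.pi fun _ : Fin r => markLaw μ) hYm hi hlo h1).eventually
    (gt_mem_nhds (div_pos (half_pos hε) (by linarith : 0 < K + 1)))).exists
  set Y' : (Fin r → Unit × X) → ℝ := fun ω => min (Y ω) (max (M : ℝ) lo) with hY'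
  have hY'm : Measurable Y' := hYm.min measurable_const
  have hY'1 : ∀ ω, lo ≤ Y' ω := fun ω => le_min (h1 ω) (le_max_right _ _)
  set C := max (max (max (M : ℝ) lo) 1) lo⁻¹ with hCdef
  have hC : 1 ≤ C := (le_max_right _ _).trans (le_max_left _ _)
  have hB : Bdd C Y' := ⟨one_pos.trans_le hC, hY'm, fun ω =>
    ⟨(inv_le_comm₀ (one_pos.trans_le hC) hlo).2 (le_max_right _ _) |>.trans (hY'1 ω),
      (min_le_right _ _).trans ((le_max_left _ _).trans (le_max_left _ _))⟩⟩
  filter_upwards [Metric.tendsto_nhds.1 (bounded_shape (markLaw μ) hm hC hB G) (ε / 2)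
    (half_pos hε), eventually_pos r] with nn hnn hn
  rw [Real.dist_eq] at hnn ⊢
  obtain ⟨hD, hDle⟩ := cascMean_mean μ m nn hn (hYm.sub hY'm)
    (fun ω => sub_nonneg.2 (min_le_left _ _)) (hi.sub (hi.mono' hY'm.aestronglyMeasurable
      (ae_of_all _ fun ω => by
        rw [Real.norm_eq_abs, abs_of_nonneg (hlo.le.trans (hY'1 ω))]
        exact min_le_left _ _)))
  have hd : |(∫ t, treeAvg nn (leafP m nn Y t) G ∂cascLaw (markLaw μ) r nn) -
      ∫ t, treeAvg nn (leafP m nn Y' t) G ∂cascLaw (markLaw μ) r nn| ≤ K * (ε / 2 / (K + 1)) := by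
    have hy : ∀ ω, 0 ≤ Y ω := fun ω => hlo.le.trans (h1 ω)
    have hy' : ∀ ω, 0 ≤ Y' ω := fun ω => hlo.le.trans (hY'1 ω)
    have i1 := integrable_treeAvg (markLaw μ) m nn hYm hy G
    have i2 := integrable_treeAvg (markLaw μ) m nn hY'm hy' G
    rw [← integral_sub i1 i2]
    refine abs_integral_le_integral_abs.trans ((integral_mono_ae (i1.sub i2).abs
      (hD.const_mul K) ((ae_good _ r nn).mono fun t ht => ?_)).trans ?_)
    · refine (abs_treeAvg_sub_le nn (leafP_nonneg hy ht) (leafP_nonneg hy' ht) (sum_leafP_le Y t)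
        (sum_leafP_le Y' t) G).trans ?_
      rw [← mul_assoc]
      refine (mul_le_mul_of_nonneg_left
        (sum_abs_leafP_sub_le hn hlo hY'1 (fun ω => min_le_left _ _) ht)
        (mul_nonneg (Finset.sum_nonneg fun v _ => abs_nonneg _) (Nat.cast_nonneg _))).trans (le_of_eq ?_)
      show _ = K * cascMean m nn (fun ω => Y ω - Y' ω) t
      rw [hK]; ring
    · rw [integral_const_mul]
      exact mul_le_mul_of_nonneg_left (hDle.trans hM.le) hK0
  have hK1 : K * (ε / 2 / (K + 1)) < ε / 2 := by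
    rw [mul_div_assoc', div_lt_iff₀ (by linarith)]
    nlinarith
  calc _ ≤ |(∫ t, treeAvg nn (leafP m nn Y t) G ∂cascLaw (markLaw μ) r nn) -
          ∫ t, treeAvg nn (leafP m nn Y' t) G ∂cascLaw (markLaw μ) r nn| +
        |(∫ t, treeAvg nn (leafP m nn Y' t) G ∂cascLaw (markLaw μ) r nn) -
          ∑ v, shapeProb m k v * G v| := abs_sub_le _ _ _
    _ < ε := by linarith

end Vale.Agent.P146.Div.Limit
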